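import Vale.Agent.P061.Defs

namespace Vale.Agent.P061

open Finset

variable {V E : Type}

theorem exists_full_cut [Fintype V] (ends : E → Sym2 V) (hl : ∀ e, ¬ (ends e).IsDiag)
    (T : Finset E) (hT : IsSpanningTree ends T) (hV : 2 ≤ Fintype.card V) :
    ∃ S : Finset V, S.Nonempty ∧ S ≠ univ ∧ cutSize ends T S = T.card := by
  classical
  obtain ⟨hcard, hconn⟩ := hT
  set H := SimpleGraph.fromEdgeSet (ends '' (T : Set E)) with hH
  have hes : H.edgeSet = ends '' (T : Set E) := by
    rw [hH, SimpleGraph.edgeSet_fromEdgeSet, sdiff_eq_left, Set.disjoint_left]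
    rintro _ ⟨e, _, rfl⟩ h
    exact hl e h
  have htree : H.IsTree := by
    rw [SimpleGraph.isTree_iff_connected_and_card]
    refine ⟨hconn, ?_⟩
    have h1 := hconn.card_vert_le_card_edgeSet_add_one
    have h2 : Nat.card H.edgeSet ≤ T.card := by
      rw [hes, Nat.card_coe_set_eq]
      exact (Set.ncard_image_le T.finite_toSet).trans (by simp)
    rw [Nat.card_eq_fintype_card] at h1 ⊢
    simp only [Nat.card_eq_fintype_card] at *
    omega
  obtain ⟨c⟩ := htree.colorable_two
  refine ⟨univ.filter fun v => c v = 0, ?_⟩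
  have key : ∀ e ∈ T, Crosses ends (univ.filter fun v => c v = 0) e := by
    intro e he
    obtain ⟨a, b, hab⟩ : ∃ a b, ends e = s(a, b) := by
      induction ends e using Sym2.ind with
      | _ a b => exact ⟨a, b, rfl⟩
    have hne : c a ≠ c b := by
      apply c.valid
      rw [← SimpleGraph.mem_edgeSet, hes]
      exact ⟨e, he, hab⟩
    have h01 : ∀ i j : Fin 2, i ≠ j → i = 0 ∧ j ≠ 0 ∨ j = 0 ∧ i ≠ 0 := by decide
    rcases h01 _ _ hne with ⟨ha, hb⟩ | ⟨hb, ha⟩
    · exact ⟨a, b, hab, by simp [ha], by simp [hb]⟩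
    · exact ⟨b, a, by rw [hab, Sym2.eq_swap], by simp [hb], by simp [ha]⟩
  obtain ⟨e, he⟩ : T.Nonempty := by
    rw [← Finset.card_pos]; omega
  obtain ⟨a, b, _, ha, hb⟩ := key e he
  refine ⟨⟨a, ha⟩, fun h => hb (by rw [h]; exact mem_univ b), ?_⟩
  unfold cutSize
  rw [Finset.filter_true_of_mem key]

/-- Edge copies of the complete graph on `Fin n`. -/
abbrev CompleteEdges (n : ℕ) : Type := {p : Fin n × Fin n // p.1 < p.2}

/-- Endpoints in the complete graph. -/
def completeEnds (n : ℕ) (e : CompleteEdges n) : Sym2 (Fin n) := s(e.1.1, e.1.2)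

theorem completeEnds_not_isDiag (n : ℕ) (e : CompleteEdges n) :
    ¬ (completeEnds n e).IsDiag := by
  simp [completeEnds, e.2.ne]

theorem cutSize_complete (n : ℕ) (S : Finset (Fin n)) :
    cutSize (completeEnds n) univ S = S.card * (n - S.card) := by
  classical
  have : S.card * (n - S.card) = (S ×ˢ Sᶜ).card := by
    simp [Finset.card_compl]
  rw [this]
  unfold cutSize
  symm
  refine Finset.card_bij (fun p hp => ⟨(min p.1 p.2, max p.1 p.2), ?_⟩) ?_ ?_ ?_
  · simp only [mem_product, mem_compl] at hp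
    exact min_lt_max.2 (fun h => hp.2 (h ▸ hp.1))
  · intro p hp
    simp only [mem_product, mem_compl] at hp
    simp only [mem_filter, mem_univ, true_and, Crosses, completeEnds]
    refine ⟨p.1, p.2, ?_, hp.1, hp.2⟩
    rcases le_total p.1 p.2 with h | h
    · rw [min_eq_left h, max_eq_right h]
    · rw [min_eq_right h, max_eq_left h, Sym2.eq_swap]
  · rintro ⟨a, b⟩ hp ⟨c, d⟩ hq h
    simp only [mem_product, mem_compl] at hp hq
    simp only [Subtype.mk.injEq, Prod.mk.injEq] at h
    have h' : s(a, b) = s(c, d) := by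
      rcases le_total a b with h1 | h1 <;> rcases le_total c d with h2 | h2 <;>
        simp_all [min_eq_left, min_eq_right, max_eq_left, max_eq_right, Sym2.eq_iff]
    rcases Sym2.eq_iff.1 h' with ⟨h1, h2⟩ | ⟨h1, h2⟩
    · simp [h1, h2]
    · exact absurd (h1 ▸ hp.1) hq.2
  · intro e he
    simp only [mem_filter, mem_univ, true_and, Crosses, completeEnds] at he
    obtain ⟨a, b, hab, ha, hb⟩ := he
    refine ⟨(a, b), by simp [ha, hb], ?_⟩
    apply Subtype.ext
    rcases Sym2.eq_iff.1 hab with ⟨h1, h2⟩ | ⟨h1, h2⟩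
    · simp [← h1, ← h2, min_eq_left e.2.le, max_eq_right e.2.le]
    · simp [← h1, ← h2, min_eq_right e.2.le, max_eq_left e.2.le]

theorem edgeConn_complete (k : ℕ) : EdgeConn (completeEnds (k + 1)) k := by
  intro S hS hne
  rw [cutSize_complete]
  have h1 : 1 ≤ S.card := hS.card_pos
  have h2 : S.card < k + 1 := by
    simpa using Finset.card_lt_card (Finset.ssubset_univ_iff.2 hne)
  obtain ⟨t, ht⟩ := Nat.exists_eq_add_of_lt h2
  have ht' : k + 1 - S.card = t + 1 := by omega
  rw [ht']
  nlinarith [Nat.zero_le t]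

theorem complete_not_thinner (k : ℕ) (hk : 1 ≤ k) (T : Finset (CompleteEdges (k + 1)))
    (hT : IsSpanningTree (completeEnds (k + 1)) T) (α : ℝ)
    (hα : IsThin (completeEnds (k + 1)) T α) : 4 * (k : ℝ) / (k + 1) ^ 2 ≤ α := by
  have hcard : T.card = k := by
    have := hT.1
    simpa using this
  obtain ⟨S, hS, hne, hcut⟩ :=
    exists_full_cut _ (completeEnds_not_isDiag _) T hT (by simp; omega)
  have h := hα S hS hne
  rw [hcut, hcard, cutSize_complete] at h
  have h2 : S.card ≤ k + 1 := by simpa using S.card_le_univ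
  push_cast [Nat.cast_sub h2] at h
  have hk' : (1 : ℝ) ≤ k := by exact_mod_cast hk
  have hs : (S.card : ℝ) ≤ k + 1 := by exact_mod_cast h2
  have hs0 : (0 : ℝ) ≤ S.card := Nat.cast_nonneg _
  have hα0 : 0 ≤ α := by
    by_contra hneg
    nlinarith [mul_nonneg hs0 (sub_nonneg.2 hs)]
  rw [div_le_iff₀ (by positivity)]
  nlinarith [mul_nonneg hα0 (sq_nonneg (2 * (S.card : ℝ) - (k + 1)))]

end Vale.Agent.P061
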