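import Mathlib

namespace Vale.Agent.P061

variable {V E : Type}

/-- The edge copy `e` of the multigraph with endpoint map `ends` has exactly one endpoint in `S`. -/
def Crosses (ends : E → Sym2 V) (S : Finset V) (e : E) : Prop :=
  ∃ a b : V, ends e = s(a, b) ∧ a ∈ S ∧ b ∉ S

/-- The number of edge copies among those in `F` with exactly one endpoint in `S`. -/
noncomputable def cutSize (ends : E → Sym2 V) (F : Finset E) (S : Finset V) : ℕ := by
  classical exact (F.filter (Crosses ends S)).card

/-- `k`-edge-connectivity: each nonempty proper vertex subset is left by at least `k` edge copies. -/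
def EdgeConn [Fintype V] [Fintype E] (ends : E → Sym2 V) (k : ℕ) : Prop :=
  ∀ S : Finset V, S.Nonempty → S ≠ Finset.univ → k ≤ cutSize ends Finset.univ S

/-- A spanning tree: `n - 1` edge copies that connect all of `V`. -/
def IsSpanningTree [Fintype V] (ends : E → Sym2 V) (T : Finset E) : Prop :=
  T.card + 1 = Fintype.card V ∧ (SimpleGraph.fromEdgeSet (ends '' (T : Set E))).Connected

/-- `T` is `α`-thin: every cut contains at most `α` times as many copies of `T` as of the graph. -/
def IsThin [Fintype V] [Fintype E] (ends : E → Sym2 V) (T : Finset E) (α : ℝ) : Prop :=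
  ∀ S : Finset V, S.Nonempty → S ≠ Finset.univ →
    (cutSize ends T S : ℝ) ≤ α * (cutSize ends Finset.univ S : ℝ)

/-- For all `k ≥ K`, every loopless `k`-edge-connected multigraph on at least two vertices has a
`(C / k)`-thin spanning tree. -/
def ThinTreesFrom (C : ℝ) (K : ℕ) : Prop :=
  ∀ k : ℕ, 1 ≤ k → K ≤ k → ∀ (V E : Type) [Fintype V] [Fintype E] (ends : E → Sym2 V),
    (∀ e, ¬ (ends e).IsDiag) → 2 ≤ Fintype.card V → EdgeConn ends k →
      ∃ T : Finset E, IsSpanningTree ends T ∧ IsThin ends T (C / k)

end Vale.Agent.P061
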